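import Vale.Agent.P210G.Gid
import Vale.Agent.P210S.Defs

/-!
# P210R: sweeps and rounds of stage 1; definitions and statements (helper68)

Labels are the numbers `j < m`.  A distribution is a family `K j ≥ 0` of smooth functions with
`∑ j < m, K j = 1`; `En` is its Fisher information.
-/

open Filter Topology Set Finset
open scoped ContDiff
open Vale.Agent.P366M Vale.Agent.P366M.Gr Vale.Agent.P366M.Y.C Vale.Agent.P210G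
open Vale.Agent.P210U (Up)

noncomputable section

namespace Vale.Agent.P210R

section

variable {n : ℕ} {M : Type} [Mf0 n M]

/-- `u = 1 / W` -/
def uu (g : Fld n M) (w : M → ℝ) (x : M) : ℝ := (ww g 1 w x)⁻¹

/-- `y = (1 - u) / w` -/
def yy (g : Fld n M) (w : M → ℝ) (x : M) : ℝ := (1 - uu g w x) / w x

/-- the gain from the second derivatives; it is at least `|A - (q u / w) dw ⊗ dw|²` -/
def hq (q : ℝ) (g : Fld n M) (w : M → ℝ) (x : M) : ℝ :=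
  a2 g w x + ip (gb g 1 w) (lw g w) (lw g w) x - 2 * q * uu g w x * dn g w (lw g w) x / w x +
    q ^ 2 * (1 - uu g w x ^ 2) ^ 2 / w x ^ 2

/-- the metrics of a sweep -/
def gs (g : Fld n M) (w : ℕ → M → ℝ) : ℕ → Fld n M
  | 0 => g
  | j + 1 => gb (gs g w j) 1 (w j)

/-- `r = r₀ + ∑ w²` -/
def rr (r₀ : ℝ) (w : ℕ → M → ℝ) (m : ℕ) (x : M) : ℝ := r₀ + ∑ j ∈ range m, w j x ^ 2

/-- `f = log r / 2` -/
def ff (r₀ : ℝ) (w : ℕ → M → ℝ) (m : ℕ) (x : M) : ℝ := Real.log (rr r₀ w m x) / 2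

/-- the steepness `∑ (1 - u)` -/
def aa (g : Fld n M) (w : ℕ → M → ℝ) (m : ℕ) (x : M) : ℝ :=
  ∑ j ∈ range m, (1 - uu (gs g w j) (w j) x)

/-- the Fisher information of one function -/
def fi (g : Fld n M) (K : M → ℝ) (x : M) : ℝ := ip g K K x / (4 * K x)

/-- the Fisher information of a distribution -/
def En (g : Fld n M) (K : ℕ → M → ℝ) (m : ℕ) (x : M) : ℝ := ∑ j ∈ range m, fi g (K j) x

/-- distributions -/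
structure Dis (K : ℕ → M → ℝ) (m : ℕ) : Prop where
  sm : ∀ j, Smooth (K j)
  nn : ∀ j x, 0 ≤ K j x
  one : ∀ x, ∑ j ∈ range m, K j x = 1

/-- the prescribed mean curvature of a step -/
def Hf (q β : ℝ) (V k κ : M → ℝ) (x : M) (t u : ℝ) : ℝ :=
  -(q * (1 - u) / t) + V x * t + (β + κ x) * (t - k x / t)

/-- the energy `∑ |dw|²` in the last metric of the sweep -/
def tt (g : Fld n M) (w : ℕ → M → ℝ) (m : ℕ) (x : M) : ℝ :=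
  ∑ j ∈ range m, ip (gs g w m) (w j) (w j) x

/-- the monotone quantity -/
def SS (δ α : ℝ) (V : ℕ → M → ℝ) (g : Fld n M) (v : Fin n → M → ℝ) (K : ℕ → M → ℝ) (m : ℕ)
    (x : M) : ℝ := Rv g v x - α * (En g K m x + (2 - δ) * ∑ j ∈ range m, V j x * K j x)

/-- `K j` lives in a sublevel set of the potential -/
def Sup (U : ℕ → Set M) (V K : ℕ → M → ℝ) (h : ℝ) : Prop :=
  ∀ j x, K j x ≠ 0 → x ∈ U j ∧ V j x ≤ h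

end

/-- **DRIFT**: the move of the drift after a sweep (no equation is used) -/
def DRIFT : Prop := ∃ C ≥ (1 : ℝ), ∀ (n : ℕ) (M : Type) [Mf0 n M] (g : Fld n M) (w : ℕ → M → ℝ)
  (m : ℕ) (χ : M → ℝ) (q c α r₀ : ℝ), 1 ≤ n → Met g → (∀ j, Smooth (w j)) → (∀ j x, 0 < w j x) →
  Smooth χ → (∀ x, 0 ≤ χ x ∧ χ x ≤ 1) → 0 ≤ q → q ≤ 1 → 0 < c → C * n * c ≤ 1 → 0 < α →
  C * α ≤ 1 → 0 < r₀ → ∃ a : Fin n → M → ℝ, CC ∞ a ∧ (∀ x, χ x = 0 → ∀ i, a i x = 0) ∧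
    ∀ v : Fin n → M → ℝ, CC ∞ v → ∀ (x : M) (l : ℝ), α ≤ l → l ≤ 1 →
      Rv (gs g w m) v x +
        (if aa g w m x ≤ 4 * α then χ x * c * aa g w m x ^ 2 / (4 * n * rr r₀ w m x) else 0) -
        (∑ j ∈ range m, hq q (gs g w j) (w j) x) / 2 - l * ∑ j ∈ range m, yy (gs g w j) (w j) x ^ 2 -
        l * ∑ j ∈ range m, Dv (gs g w m) v (nv (gs g w j) (w j)) x ^ 2 -
        C * (c + c ^ 2 / l) * α * ip (gs g w m) (ff r₀ w m) (ff r₀ w m) x -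
        C * c * (aa g w m x ^ 2 / α) * ip (gs g w m) χ χ x ≤
      Rv (gs g w m) (fun i y => v i y + a i y) x

/-- **LSTEP**: one step, exact on `ϱ < 3`, small on `2 ≤ ϱ`, trivial on `4 ≤ ϱ` -/
def LSTEP : Prop := ∀ (n : ℕ) (X : Type) [Mf0 n X] [CompactSpace X] (g₀ : Fld n X) (ϱ : X → ℝ)
  (c₀ : ℝ), 2 ≤ n → Met g₀ → Smooth ϱ → 0 < c₀ → ∃ β₀ : ℝ, ∀ β, β₀ ≤ β → 0 < β →
  ∀ (g : Fld n X) (v : Fin n → X → ℝ) (V k : X → ℝ) (q η : ℝ), Met g → Up g₀ g → CC ∞ v →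
  Smooth V → Smooth k → (∀ x, 0 ≤ V x) → (∀ x, 0 < k x) → 0 ≤ q → q ≤ 1 → 0 < η →
  (∃ V₀ k₀, ∀ x, 0 < ϱ x → V x = V₀ ∧ k x = k₀) →
  ∃ (w : X → ℝ) (v' : Fin n → X → ℝ) (κ : X → ℝ), Smooth w ∧ (∀ x, 0 < w x) ∧ CC ∞ v' ∧ Smooth κ ∧
    (∀ x, 0 ≤ κ x ∧ ip g κ κ x ≤ c₀ * κ x * (β + κ x) ^ 2 ∧ (ϱ x ≤ 0 → κ x = 0)) ∧
    (∀ x, ϱ x < 3 → (∀ i, v' i x = vg g v w i x) ∧
      hv g v w x = Hf q β V k κ x (w x) (uu g w x)) ∧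
    (∀ x, 2 ≤ ϱ x → ip g w w x ≤ η ∧ |w x ^ 2 - k x| ≤ η ∧ Rv g v x - η ≤ Rv (gb g 1 w) v' x) ∧
    ∀ x, 4 ≤ ϱ x → gb g 1 w x = g x ∧ ∀ i, v' i x = v i x

/-- **GAM**: truncation of a potential at an arbitrary height beyond the level `h` -/
def GAM : Prop := ∃ C ≥ (1 : ℝ), ∀ (n : ℕ) (X : Type) [Mf0 n X] [CompactSpace X] (g : Fld n X)
  (θ : ℝ) (Λ : X → ℝ) (U : ℕ → Set X) (V : ℕ → X → ℝ) (j : ℕ) (h : ℝ), Met g → 0 < θ →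
  P210S.Pot g θ Λ U V → ∃ (h' : ℝ) (O F : Set X), IsOpen O ∧ IsClosed F ∧ F ⊆ O ∧
    (∀ x ∉ F, x ∈ U j ∧ V j x ≤ h') ∧ (∀ x ∈ O, x ∈ U j → h < V j x) ∧
    ∀ A₀ : ℝ, ∃ A ≥ A₀, ∃ W : X → ℝ, Smooth W ∧ (∀ x ∈ O, W x = A) ∧
      (∀ x ∈ U j, (V j x ≤ h → W x = V j x) ∧ (V j x ≤ h' → V j x ≤ W x)) ∧
      ∀ x, 0 ≤ W x ∧ W x ≤ A ∧ ip g W W x ≤ W x * (C * θ * W x ^ 2 + Λ x)

/-- **MIX**: normalise, move the mass `r₀ + Y` to `p`, cut the small amplitudes -/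
def MIX : Prop := ∀ (n : ℕ) (M : Type) [Mf0 n M] (G : Fld n M) (t p : ℕ → M → ℝ) (m : ℕ)
  (Y : M → ℝ) (r₀ d η : ℝ), Met G → (∀ j, Smooth (t j)) → (∀ j x, 0 < t j x) → Dis p m →
  Smooth Y → (∀ x, 0 < Y x) → 0 < r₀ → 0 < d → η ≤ 1 → 8 * m * d ≤ η * √r₀ →
  ∃ K : ℕ → M → ℝ, Dis K m ∧ (∀ j x, t j x ≤ d → p j x = 0 → K j x = 0) ∧ ∀ x,
    (∀ j, K j x ≤ (1 + η) * ((t j x ^ 2 + (r₀ + Y x) * p j x) / (rr r₀ t m x + Y x))) ∧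
    En G K m x ≤ (1 + η) * ((∑ j ∈ range m, ip G (t j) (t j) x + fi G Y x) / (rr r₀ t m x + Y x) -
      ip G (fun y => rr r₀ t m y + Y y) (fun y => rr r₀ t m y + Y y) x /
        (4 * (rr r₀ t m x + Y x) ^ 2) + (r₀ + Y x) / (rr r₀ t m x + Y x) * En G p m x)

/-- **SWEEP** -/
def SWEEP : Prop := ∀ n : ℕ, 2 ≤ n → ∀ A ≥ (1 : ℝ), ∃ δ > (0 : ℝ), δ ≤ 1 ∧ ∃ c > (0 : ℝ),
  ∃ θ > (0 : ℝ), ∃ C > (0 : ℝ), ∃ α₀ > (0 : ℝ), ∀ (X : Type) [Mf0 n X] [CompactSpace X]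
    (g₀ : Fld n X) (Λ : X → ℝ) (U : ℕ → Set X) (V p : ℕ → X → ℝ) (m j₀ : ℕ) (ϱ : X → ℝ) (B α : ℝ),
    Met g₀ → P210S.Pot g₀ θ Λ U V → Dis p m → Sup U V p 0 → (∀ x, En g₀ p m x ≤ B) → Smooth ϱ →
    (∀ j ≠ j₀, ∀ x ∈ U j, ϱ x ≤ 0) → 0 < α → α ≤ α₀ → ∃ s₀ > (0 : ℝ), ∀ s, 0 < s → s ≤ s₀ →
    ∀ η > (0 : ℝ), ∃ r₀ > (0 : ℝ), r₀ ≤ s / 16 ∧ ∀ d > (0 : ℝ), ∀ (g : Fld n X)
      (v : Fin n → X → ℝ) (K : ℕ → X → ℝ) (h : ℝ), Met g → Up g₀ g → CC ∞ v → Dis K m →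
      Sup U V K h → ∃ (t : ℕ → X → ℝ) (v' : Fin n → X → ℝ) (K' : ℕ → X → ℝ) (h' : ℝ),
        (∀ j, Smooth (t j)) ∧ CC ∞ v' ∧ Dis K' m ∧ Sup U V K' h' ∧
        (∀ j < m, ∀ x, 0 < t j x ∧ (x ∉ U j → t j x ≤ d)) ∧
        (∀ x, 4 ≤ ϱ x → gs g t m x = g x ∧ (∀ i, v' i x = v i x) ∧ 7 / 8 * s ≤ rr r₀ t m x) ∧
        ∀ x, SS δ α V g v K m x + A * δ * (tt g t m x ^ 2 / rr r₀ t m x) +
          (if rr r₀ t m x ≤ 3 / 4 * s then c * α ^ 2 / s else 0) - C * s * Λ x -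
          δ * s * En g₀ p m x ^ 2 - η ≤ SS δ α V (gs g t m) v' K' m x

end Vale.Agent.P210R
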