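import Vale.Agent.P210R.Defs

/-!
# P210R: the statements of the pieces of `SWEEP` (helper68)
-/

open Filter Topology Set Finset
open scoped ContDiff
open Vale.Agent.P366M Vale.Agent.P366M.Gr Vale.Agent.P366M.Y.C Vale.Agent.P210G
open Vale.Agent.P210U (Up)

noncomputable section

namespace Vale.Agent.P210R

/-- **STEP**: the pointwise inequality of an exact step -/
def STEP : Prop := ∀ (n : ℕ) (M : Type) [Mf0 n M] (g : Fld n M) (v : Fin n → M → ℝ)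
  (w V k κ : M → ℝ) (q β e : ℝ) (x : M), Met g → CC ∞ v → Smooth w → Smooth V → Smooth k →
  Smooth κ → (∀ y, 0 < w y) → 0 ≤ k x → 0 ≤ β + κ x → 0 ≤ q → q ≤ 1 → 0 ≤ e →
  ip g k k x ≤ 4 * k x * e → (∀ᶠ y in 𝓝 x, hv g v w y = Hf q β V k κ y (w y) (uu g w y)) →
  0 ≤ hq q g w x ∧ Rv g v x + hq q g w x + hv g v w x ^ 2 + 2 * q * (1 - q) * yy g w x ^ 2 +
    2 * (V x + β + κ x) * ((1 - uu g w x ^ 2) / uu g w x) - 2 * (β + κ x) * e +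
    2 * w x * dn g w V x + 2 * (w x - k x / w x) * dn g w κ x ≤ Rv (gb g 1 w) (vg g v w) x

/-- the output of one step for the label with potential `V` on `U`, distribution `K` -/
structure Pst {n : ℕ} {X : Type} [Mf0 n X] (g₀ : Fld n X) (ϱ Λ : X → ℝ) (U : Set X) (V K : X → ℝ)
    (θ c₀ β q s η d : ℝ) (g : Fld n X) (v : Fin n → X → ℝ) (h' ε : ℝ) (W w κ : X → ℝ)
    (v' : Fin n → X → ℝ) : Prop where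
  smW : Smooth W
  smw : Smooth w
  smκ : Smooth κ
  cc : CC ∞ v'
  w0 : ∀ x, 0 < w x
  W0 : ∀ x, 0 ≤ W x
  gW : ∀ x, ip g₀ W W x ≤ W x * (θ * W x ^ 2 + Λ x)
  old : ∀ x, K x ≠ 0 → W x = V x
  new : ∀ x ∈ U, V x ≤ h' → V x ≤ W x
  cst : ∃ c, ∀ x, 0 < ϱ x → W x = c
  e0 : 0 < ε
  e1 : ε ≤ η
  e2 : ∀ x, W x * ε ≤ η
  e3 : ∀ x, W x ^ 2 * ε ≤ η
  k0 : ∀ x, 0 ≤ κ x
  gk : ∀ x, ip g κ κ x ≤ c₀ * κ x * (β + κ x) ^ 2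
  kz : ∀ x, ϱ x ≤ 0 → κ x = 0
  ex : ∀ x, ϱ x < 3 → (∀ i, v' i x = vg g v w i x) ∧
    hv g v w x = Hf q β W (fun y => s * K y + ε) κ x (w x) (uu g w x)
  sml : ∀ x, 2 ≤ ϱ x → ip g w w x ≤ η ∧ |w x ^ 2 - (s * K x + ε)| ≤ η ∧
    Rv g v x - η ≤ Rv (gb g 1 w) v' x
  fz : ∀ x, 4 ≤ ϱ x → gb g 1 w x = g x ∧ ∀ i, v' i x = v i x
  out : ∀ x, ¬(x ∈ U ∧ V x ≤ h') → w x ≤ d

/-- **PSTEP**: one step with the truncation of the potential, the floor and the spring -/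
def PSTEP : Prop := ∃ C ≥ (1 : ℝ), ∀ (n : ℕ) (X : Type) [Mf0 n X] [CompactSpace X] (g₀ : Fld n X)
  (ϱ : X → ℝ) (c₀ : ℝ), 2 ≤ n → Met g₀ → Smooth ϱ → 0 < c₀ → ∃ β₀ : ℝ, ∀ β, β₀ ≤ β → 0 < β →
  ∀ (θ : ℝ) (Λ : X → ℝ) (U : ℕ → Set X) (V : ℕ → X → ℝ) (j : ℕ) (K : X → ℝ) (h q s η d : ℝ)
    (g : Fld n X) (v : Fin n → X → ℝ), 0 < θ → P210S.Pot g₀ θ Λ U V → Smooth K → (∀ x, 0 ≤ K x) →
    (∀ x, K x ≠ 0 → x ∈ U j ∧ V j x ≤ h) →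
    ((∀ x, 0 < ϱ x → x ∉ U j) ∨ ∀ x, 0 < ϱ x → x ∈ U j ∧ V j x = 0 ∧ K x = 1) →
    0 ≤ q → q ≤ 1 → 0 < s → 0 < η → 0 < d → Met g → Up g₀ g → CC ∞ v →
    ∃ h' ε W w κ v', Pst g₀ ϱ Λ (U j) (V j) K (C * θ) c₀ β q s η d g v h' ε W w κ v'

/-- **MIXB**: the cost of the mixing with `Y = 2 δ (X + e) s r / (α (s + r))`, `X = ∑ W t²` -/
def MIXB : Prop := ∀ (n : ℕ) (M : Type) [Mf0 n M] (G : Fld n M) (t W : ℕ → M → ℝ) (m : ℕ)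
  (r₀ s α δ e θ Λ : ℝ) (x : M), Met G → (∀ j, Smooth (t j)) → (∀ j, Smooth (W j)) →
  (∀ j y, 0 ≤ W j y) → 0 < r₀ → 0 < s → 0 < α → 0 < δ → 0 < e → 0 ≤ θ → 0 ≤ Λ →
  (∀ j < m, ip G (W j) (W j) x ≤ W j x * (θ * W j x ^ 2 + Λ)) → ∀ Y : M → ℝ,
  (Y = fun y => 2 * δ * (∑ j ∈ range m, W j y * t j y ^ 2 + e) * s * rr r₀ t m y /
    (α * (s + rr r₀ t m y))) → Smooth Y ∧ (∀ y, 0 < Y y) ∧
  ip G (ff r₀ t m) (ff r₀ t m) x ≤ (∑ j ∈ range m, ip G (t j) (t j) x) / rr r₀ t m x ∧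
  α * ((∑ j ∈ range m, ip G (t j) (t j) x + fi G Y x) / (rr r₀ t m x + Y x) -
    ip G (fun y => rr r₀ t m y + Y y) (fun y => rr r₀ t m y + Y y) x /
      (4 * (rr r₀ t m x + Y x) ^ 2)) ≤
    α * ((∑ j ∈ range m, ip G (t j) (t j) x) / rr r₀ t m x) -
      α / 2 * ip G (ff r₀ t m) (ff r₀ t m) x + 8 * δ * ∑ j ∈ range m, W j x * ip G (t j) (t j) x +
      2 * δ * θ * ∑ j ∈ range m, (W j x * t j x) ^ 2 + 2 * δ * Λ * s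

/-- **ALG**: the real inequality of a sweep in the inner region -/
def ALG : Prop := ∀ r s α δ a c Λ E B e η r₀ N A S A₀ T X b P Y D G z : ℝ, 0 < r₀ → r₀ ≤ r →
  0 < s → 0 < α → 0 < δ → 16 * δ ≤ a → 0 ≤ A → 4 * A * δ ≤ a → a ≤ 1 / 100 →
  1000 * a ^ 2 ≤ δ * c → c ≤ 1 → 0 ≤ Λ → 0 ≤ E → E ≤ B → 0 ≤ e → e ≤ α → 0 ≤ η → η ≤ 1 / 10 →
  10000 * s * B ≤ δ * α → 0 ≤ T → T ≤ S → T ≤ N → A₀ ≤ S → S ≤ 2 * A₀ → 0 ≤ X → 0 ≤ b →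
  X ^ 2 ≤ b * r → A₀ ^ 2 ≤ Y * r → 0 ≤ P →
  (0 ≤ (1 - a) * A₀ + (1 - δ) * X + α * (s - r) / (2 * s) →
    ((1 - a) * A₀ + (1 - δ) * X + α * (s - r) / (2 * s)) ^ 2 ≤ P * r) →
  D ≤ 2 * Λ / a * r → D ≤ α / (4 * s) * (S + X) → 0 ≤ G → (A₀ ≤ 4 * α → c * A₀ ^ 2 / r ≤ G) →
  z = 2 * δ * (X + e) * s / (α * (s + r)) →
  A * δ * (T ^ 2 / r) + (if r ≤ 3 / 4 * s then δ / 2000 * α ^ 2 / s else 0) - (4 / a + 4) * s * Λ -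
      δ * s * E ^ 2 - (η * α * N / r₀ + 20 * η ^ 2 * α ^ 2 / (δ * r₀) + 4 * α * r₀ * B / s +
        4 * δ * e * B) ≤
    G + (1 - δ / 50) * P + 9 / 5 * δ * b + a * Y + α / s * S + (2 - δ) * α * X / s - D -
      (1 + η) * (α * (T / r) + (2 - δ) * α * (X / (r * (1 + z))) + α * ((r₀ + z * r) /
        (r * (1 + z)) * E) + 2 * δ * Λ * s)

/-- **ALGO**: the real inequality of a sweep in the outer region -/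
def ALGO : Prop := ∀ r s α δ a γ A S A₀ T Y H L : ℝ, 0 < r → 0 < s → 0 < α → 0 < δ → 16 * δ ≤ a →
  0 ≤ A → 4 * A * δ ≤ a → a ≤ 1 / 100 → 0 ≤ γ → 64 * γ ^ 2 ≤ a → 0 ≤ T → T ≤ S → S ≤ 2 * A₀ →
  A₀ ^ 2 ≤ Y * r → L ≤ T / r → 0 ≤ H → (r ≤ s → (α * (s - r) / (2 * s)) ^ 2 ≤ H * r) →
  A * δ * (T ^ 2 / r) + (if r ≤ 3 / 4 * s then δ / 2000 * α ^ 2 / s else 0) ≤
    H / 2 + 3 / 2 * a * Y + α / s * S - γ * α * L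

/-- the data of a sweep; `q = 1 - a`, `β = α / (2 s)`, `c₀ = a / 10` -/
structure Swp {n : ℕ} {X : Type} [Mf0 n X] (g₀ : Fld n X) (ϱ Λ : X → ℝ) (U : ℕ → Set X)
    (V K : ℕ → X → ℝ) (m : ℕ) (θ a α s η d : ℝ) (g : Fld n X) (h' ε : ℕ → ℝ) (W t κ : ℕ → X → ℝ)
    (vs : ℕ → Fin n → X → ℝ) : Prop where
  m0 : Met g₀
  met : Met g
  up : Up g₀ g
  cc : CC ∞ (vs 0)
  smr : Smooth ϱ
  dis : Dis K m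
  smt : ∀ j, Smooth (t j)
  t0 : ∀ j x, 0 < t j x
  smW : ∀ j, Smooth (W j)
  W0 : ∀ j x, 0 ≤ W j x
  pst : ∀ j < m, Pst g₀ ϱ Λ (U j) (V j) (K j) θ (a / 10) (α / (2 * s)) (1 - a) s η d (gs g t j)
    (vs j) (h' j) (ε j) (W j) (t j) (κ j) (vs (j + 1))

/-- **SW1**: the recursion over the labels -/
def SW1 : Prop := ∀ (n : ℕ) (X : Type) [Mf0 n X] (g₀ : Fld n X) (ϱ Λ : X → ℝ) (U : ℕ → Set X)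
  (V K : ℕ → X → ℝ) (m : ℕ) (θ a α s η d : ℝ) (g : Fld n X) (v : Fin n → X → ℝ), Met g₀ → Met g →
  Up g₀ g → CC ∞ v → Smooth ϱ → Dis K m → (∀ j < m, ∀ g' v', Met g' → Up g₀ g' → CC ∞ v' →
    ∃ h' ε W w κ v'', Pst g₀ ϱ Λ (U j) (V j) (K j) θ (a / 10) (α / (2 * s)) (1 - a) s η d g' v'
      h' ε W w κ v'') →
  ∃ h' ε W t κ vs, vs 0 = v ∧ Swp g₀ ϱ Λ U V K m θ a α s η d g h' ε W t κ vs

/-- **INNER**: the summed inequality on `ϱ ≤ 0` -/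
def INNER : Prop := ∀ (n : ℕ) (X : Type) [Mf0 n X] (g₀ : Fld n X) (ϱ Λ : X → ℝ) (U : ℕ → Set X)
  (V K : ℕ → X → ℝ) (m : ℕ) (θ a α s η d : ℝ) (g : Fld n X) (h' ε : ℕ → ℝ) (W t κ : ℕ → X → ℝ)
  (vs : ℕ → Fin n → X → ℝ) (δ r₀ : ℝ) (x : X), Swp g₀ ϱ Λ U V K m θ a α s η d g h' ε W t κ vs →
  0 < a → a ≤ 1 → 0 < δ → δ ≤ 1 → 0 < α → 0 < s → 0 ≤ θ → 0 ≤ r₀ → 0 ≤ Λ x →
  16 * s ^ 2 * Λ x ≤ α ^ 2 → ϱ x ≤ 0 → ∀ r S A₀ Xs b Y : ℝ, r = rr r₀ t m x →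
  S = ∑ j ∈ range m, (1 - uu (gs g t j) (t j) x ^ 2) → A₀ = aa g t m x →
  Xs = ∑ j ∈ range m, W j x * t j x ^ 2 → b = ∑ j ∈ range m, (W j x * t j x) ^ 2 →
  Y = ∑ j ∈ range m, yy (gs g t j) (t j) x ^ 2 →
  tt g t m x ≤ S ∧ A₀ ≤ S ∧ S ≤ 2 * A₀ ∧ Xs ^ 2 ≤ b * r ∧ A₀ ^ 2 ≤ Y * r ∧
  0 ≤ ∑ j ∈ range m, hq (1 - a) (gs g t j) (t j) x ∧ ∃ P D : ℝ, 0 ≤ P ∧
    (0 ≤ (1 - a) * A₀ + (1 - δ) * Xs + α * (s - r) / (2 * s) →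
      ((1 - a) * A₀ + (1 - δ) * Xs + α * (s - r) / (2 * s)) ^ 2 ≤ P * r) ∧
    D ≤ 2 * Λ x / a * r ∧ D ≤ α / (4 * s) * (S + Xs) ∧
    ∑ j ∈ range m, Dv (gs g t m) (vs m) (nv (gs g t j) (t j)) x ^ 2 ≤ 2 * P + 8 * b ∧
    SS δ α V g (vs 0) K m x + ∑ j ∈ range m, hq (1 - a) (gs g t j) (t j) x + P +
      (2 * δ - δ ^ 2 - 2 * θ / a) * b + a * ∑ j ∈ range m, W j x * ip (gs g t m) (t j) (t j) x +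
      2 * (1 - a) * a * Y + α / s * S + (2 - δ) * α * Xs / s - D - 2 * m * α * η / s ≤
      Rv (gs g t m) (vs m) x

/-- **OUTER**: the summed inequality on `0 < ϱ < 3`, and the region `2 ≤ ϱ` -/
def OUTER : Prop := ∀ (n : ℕ) (X : Type) [Mf0 n X] (g₀ : Fld n X) (ϱ Λ : X → ℝ) (U : ℕ → Set X)
  (V K : ℕ → X → ℝ) (m j₀ : ℕ) (θ a α s η d : ℝ) (g : Fld n X) (h' ε : ℕ → ℝ) (W t κ : ℕ → X → ℝ)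
  (vs : ℕ → Fin n → X → ℝ) (r₀ : ℝ) (x : X), Swp g₀ ϱ Λ U V K m θ a α s η d g h' ε W t κ vs →
  0 < a → a ≤ 1 / 100 → 0 < α → 0 < s → 0 ≤ r₀ → j₀ < m →
  (∀ y, 0 < ϱ y → K j₀ y = 1 ∧ V j₀ y = 0 ∧ ∀ j ≠ j₀, K j y = 0) → ∀ r S A₀ Y H : ℝ,
  r = rr r₀ t m x → S = ∑ j ∈ range m, (1 - uu (gs g t j) (t j) x ^ 2) → A₀ = aa g t m x →
  Y = ∑ j ∈ range m, yy (gs g t j) (t j) x ^ 2 →
  H = ∑ j ∈ range m, Dv (gs g t m) (vs m) (nv (gs g t j) (t j)) x ^ 2 →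
  (0 < ϱ x → ϱ x < 3 → tt g t m x ≤ S ∧ S ≤ 2 * A₀ ∧ A₀ ^ 2 ≤ Y * r ∧
    0 ≤ ∑ j ∈ range m, hq (1 - a) (gs g t j) (t j) x ∧
    (r ≤ s → (α * (s - r) / (2 * s)) ^ 2 ≤ H * r) ∧
    Rv g (vs 0) x + ∑ j ∈ range m, hq (1 - a) (gs g t j) (t j) x + (1 - a / 10) * H +
      (2 * (1 - a) * a - a / 10) * Y + α / s * S - m * η ≤ Rv (gs g t m) (vs m) x) ∧
  (2 ≤ ϱ x → 0 ≤ A₀ ∧ A₀ ≤ m * η ∧ tt g t m x ≤ m * η ∧ s - η ≤ r ∧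
    Rv g (vs 0) x - m * η ≤ Rv (gs g t m) (vs m) x) ∧
  (4 ≤ ϱ x → gs g t m x = g x ∧ ∀ i, vs m i x = vs 0 i x)

end Vale.Agent.P210R
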