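import Vale.Agent.P210R.Sta
import Vale.Agent.P210D.Sw
import Vale.Agent.P210V.MixR
import Vale.Agent.P210S.Pot
import Vale.Agent.P210U.Loc
import Vale.Agent.P210T.LStep

/-!
# P210R: `SWEEP` from its pieces (helper68)
-/

open Filter Topology Set Finset
open scoped ContDiff
open Vale.Agent.P366M Vale.Agent.P366M.Gr Vale.Agent.P366M.Y.C Vale.Agent.P210G
open Vale.Agent.P210U (Up)

noncomputable section

namespace Vale.Agent.P210R

theorem small {f : ℝ → ℝ} {b : ℝ} (hf : Continuous f) (h : f 0 < b) :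
    ∀ᶠ e in 𝓝[>] (0 : ℝ), f e ≤ b :=
  ((hf.continuousAt.eventually_lt continuousAt_const h).mono fun _ => le_of_lt).filter_mono
    nhdsWithin_le_nhds

theorem small_ex {P : ℝ → Prop} (h : ∀ᶠ e in 𝓝[>] (0 : ℝ), P e) : ∃ e > (0 : ℝ), P e :=
  (eventually_mem_nhdsWithin.and h).exists

theorem consts {n A C : ℝ} (hn : 1 ≤ n) (hA : 1 ≤ A) : ∃ c > (0 : ℝ), ∃ δ > (0 : ℝ), ∃ a : ℝ,
    16 * δ ≤ a ∧ 4 * A * δ ≤ a ∧ a ≤ 1 / 100 ∧ 1000 * a ^ 2 ≤ δ * (c / (4 * n)) ∧ c / (4 * n) ≤ 1 ∧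
    C * n * c ≤ 1 ∧ C * (c + c ^ 2 / (δ / 100)) ≤ 1 / 4 ∧
    64 * (C * (c + c ^ 2 / (δ / 100))) ^ 2 ≤ a := by
  obtain ⟨κ, κ0, hκ⟩ : ∃ κ > (0 : ℝ), κ = 1 / (4000 * n * (16 * A) ^ 2) := ⟨_, by positivity, rfl⟩
  obtain ⟨c, c0, h1, h2, h3, h4, h5⟩ := small_ex
    ((small (f := fun c => 16 * A * (κ * c)) (b := 1 / 100) (by fun_prop) (by simp)).and
    ((small (f := fun c => c / (4 * n)) (b := 1) (by fun_prop) (by simp)).and
    ((small (f := fun c => C * n * c) (b := 1) (by fun_prop) (by simp)).and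
    ((small (f := fun c => C * (c * (1 + 100 / κ))) (b := 1 / 4) (by fun_prop) (by simp)).and
    (small (f := fun c => 64 * (C * (1 + 100 / κ)) ^ 2 * c) (b := 16 * A * κ) (by fun_prop)
      (by simp only [mul_zero]; positivity))))))
  have e : c + c ^ 2 / (κ * c / 100) = c * (1 + 100 / κ) := by field_simp
  have p := mul_pos κ0 c0
  refine ⟨c, c0, κ * c, p, 16 * A * (κ * c), by nlinarith, by nlinarith, h1, le_of_eq ?_, h2, h3,
    e ▸ h4, ?_⟩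
  · rw [hκ]; field_simp; ring
  · rw [e]; nlinarith [mul_le_mul_of_nonneg_right h5 c0.le]

theorem in_co {δ a η θ : ℝ} (δ0 : 0 < δ) (k1 : 16 * δ ≤ a) (k3 : a ≤ 1 / 100) (η0 : 0 ≤ η)
    (η1 : η ≤ 1 / 10) (hθ : θ ≤ a * δ / 100) : (1 + η) * 8 * δ ≤ a ∧
    9 / 5 * δ + 8 * δ / 100 + (1 + η) * θ * (2 * δ) ≤ 2 * δ - δ ^ 2 - 2 * θ / a ∧
    a + δ / 100 ≤ 2 * (1 - a) * a := by
  have a0 : 0 < a := by linarith
  have t1 : θ / a ≤ δ / 100 := by rw [div_le_iff₀ a0]; linarith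
  have t2 : θ ≤ 1 / 100 := by nlinarith
  have t3 : (1 + η) * θ ≤ 2 / 100 := by nlinarith
  exact ⟨by nlinarith, by rw [mul_div_assoc 2 θ]; nlinarith, by nlinarith⟩

theorem in_alg {S₀ R₁ R₂ Hq P b Z Y H G γ α L δ a θ η E' Br μ E₁ E T X' VK Λs D₁ : ℝ}
    (h1 : S₀ + Hq + P + (2 * δ - δ ^ 2 - 2 * θ / a) * b + a * Z + 2 * (1 - a) * a * Y + D₁ ≤ R₁)
    (h2 : R₁ + G - Hq / 2 - δ / 100 * Y - δ / 100 * H - γ * α * L ≤ R₂) (h3 : H ≤ 2 * P + 8 * b)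
    (h4 : E' ≤ (1 + η) * (Br + μ * E₁))
    (h5 : α * Br ≤ α * T - α / 2 * L + 8 * δ * Z + 2 * δ * θ * b + Λs) (h6 : E₁ ≤ E) (μ0 : 0 ≤ μ)
    (h7 : VK ≤ (1 + η) * X') (q0 : 0 ≤ Hq) (b0 : 0 ≤ b) (Z0 : 0 ≤ Z) (Y0 : 0 ≤ Y) (L0 : 0 ≤ L)
    (α0 : 0 < α) (δ0 : 0 < δ) (k1 : 16 * δ ≤ a) (k3 : a ≤ 1 / 100) (hγ : γ ≤ 1 / 4) (η0 : 0 ≤ η)
    (η1 : η ≤ 1 / 10) (hθ : θ ≤ a * δ / 100) :
    S₀ + G + (1 - δ / 50) * P + 9 / 5 * δ * b + a * Y + D₁ -
      (1 + η) * (α * T + (2 - δ) * α * X' + α * (μ * E) + Λs) ≤ R₂ - α * (E' + (2 - δ) * VK) := by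
  have a0 : 0 < a := by linarith
  have e1 : 0 ≤ 1 + η := by linarith
  obtain ⟨j1, j2, j3⟩ := in_co δ0 k1 k3 η0 η1 hθ
  have i1 := mul_le_mul_of_nonneg_left h4 α0.le
  have i2 := mul_le_mul_of_nonneg_left h5 e1
  have i3 := mul_le_mul_of_nonneg_left h6 (mul_nonneg (mul_nonneg e1 α0.le) μ0)
  have i4 := mul_le_mul_of_nonneg_left h7 (mul_nonneg α0.le (show 0 ≤ 2 - δ by linarith))
  have i5 := mul_le_mul_of_nonneg_left h3 δ0.le
  have i6 := mul_le_mul_of_nonneg_right (show γ ≤ (1 + η) / 2 by linarith) (mul_nonneg α0.le L0)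
  have i7 := mul_le_mul_of_nonneg_right j1 Z0
  have i8 := mul_le_mul_of_nonneg_right j2 b0
  have i9 := mul_le_mul_of_nonneg_right j3 Y0
  linarith

theorem out_alg {R₀ R₁ R₂ Hq Y H G J S δ a e₁ e₂ : ℝ}
    (h1 : R₀ + Hq + (1 - a / 10) * H + (2 * (1 - a) * a - a / 10) * Y + S - e₁ ≤ R₁)
    (h2 : R₁ + G - Hq / 2 - δ / 100 * Y - δ / 100 * H - J - e₂ ≤ R₂) (q0 : 0 ≤ Hq) (G0 : 0 ≤ G)
    (H0 : 0 ≤ H) (Y0 : 0 ≤ Y) (δ0 : 0 < δ) (k1 : 16 * δ ≤ a) (k3 : a ≤ 1 / 100) :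
    R₀ + (H / 2 + 3 / 2 * a * Y + S - J) - e₁ - e₂ ≤ R₂ := by
  have i1 := mul_le_mul_of_nonneg_right (show 1 / 2 + δ / 100 ≤ 1 - a / 10 by linarith) H0
  have i2 := mul_le_mul_of_nonneg_right
    (show 3 / 2 * a + δ / 100 ≤ 2 * (1 - a) * a - a / 10 by nlinarith) Y0
  linarith

variable {n : ℕ} {M : Type} [Mf0 n M]

theorem up_gs (g : Fld n M) (w : ℕ → M → ℝ) (m : ℕ) : Up g (gs g w m) := fun x ξ =>
  P210D.gq_le (g := g) (w := w) m.zero_le (fun i _ => ξ i) x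

theorem mix' (hM : MIX) {G : Fld n M} {t p : ℕ → M → ℝ} {m : ℕ} {Y : M → ℝ} {r₀ d η : ℝ}
    (hG : Met G) (ht : ∀ j, Smooth (t j)) (t0 : ∀ j x, 0 < t j x) (hp : Dis p m) (hY : Smooth Y)
    (Y0 : ∀ x, 0 < Y x) (r0 : 0 < r₀) (d0 : 0 < d) (η1 : η ≤ 1) (hd : 8 * m * d ≤ η * √r₀) :
    ∃ K : ℕ → M → ℝ, Dis K m ∧ (∀ j x, K j x ≠ 0 → j < m ∧ (d < t j x ∨ p j x ≠ 0)) ∧ ∀ x,
    (∀ j < m, K j x ≤ (1 + η) * ((t j x ^ 2 + (r₀ + Y x) * p j x) / (rr r₀ t m x + Y x))) ∧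
    En G K m x ≤ (1 + η) * ((∑ j ∈ range m, ip G (t j) (t j) x + fi G Y x) / (rr r₀ t m x + Y x) -
      ip G (fun y => rr r₀ t m y + Y y) (fun y => rr r₀ t m y + Y y) x /
        (4 * (rr r₀ t m x + Y x) ^ 2) + (r₀ + Y x) / (rr r₀ t m x + Y x) * En G p m x) := by
  obtain ⟨K, hK, z, h⟩ := hM n M G t p m Y r₀ d η hG ht t0 hp hY Y0 r0 d0 η1 hd
  have e : ∀ j ∈ range m, (if j < m then K j else fun _ => 0) = K j := fun j hj =>
    if_pos (mem_range.1 hj)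
  refine ⟨fun j => if j < m then K j else fun _ => 0, ⟨fun j => ?_, fun j x => ?_, fun x => ?_⟩,
    fun j x k => ?_, fun x => ⟨fun j hj => ?_, ?_⟩⟩
  · split_ifs
    exacts [hK.sm j, cd_const]
  · split_ifs
    exacts [hK.nn j x, le_rfl]
  · rw [sum_congr rfl fun j hj => by rw [e j hj], hK.one]
  · beta_reduce at k
    split_ifs at k with hj
    · exact ⟨hj, by by_contra! c; exact k (z j x c.1 c.2)⟩
    · exact absurd rfl k
  · simpa only [if_pos hj] using (h x).1 j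
  · refine le_of_eq_of_le ?_ (h x).2
    exact sum_congr rfl fun j hj => by simp only [e j hj]

theorem Swp.cc_vs {g₀ g : Fld n M} {ϱ Λ : M → ℝ} {U : ℕ → Set M} {V K W t κ : ℕ → M → ℝ} {m : ℕ}
    {θ a α s η d : ℝ} {h' ε : ℕ → ℝ} {vs : ℕ → Fin n → M → ℝ}
    (S : Swp g₀ ϱ Λ U V K m θ a α s η d g h' ε W t κ vs) : CC ∞ (vs m) := by
  cases m with
  | zero => exact S.cc
  | succ m => exact (S.pst m m.lt_succ_self).cc

section

variable {ϱ : M → ℝ} {U : ℕ → Set M} {V K : ℕ → M → ℝ} {m j₀ : ℕ} {h : ℝ}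
  (hj : ∀ j ≠ j₀, ∀ x ∈ U j, ϱ x ≤ 0) (hK : Dis K m) (sK : Sup U V K h)
include hj hK sK

theorem om {y : M} (hy : 0 < ϱ y) : j₀ < m ∧ K j₀ y = 1 ∧ ∀ j ≠ j₀, K j y = 0 := by
  have z : ∀ j ≠ j₀, K j y = 0 := fun j k => by
    by_contra c
    exact (hj j k y (sK j y c).1).not_gt hy
  have o := hK.one y
  by_cases c : j₀ < m
  · rw [sum_eq_single_of_mem j₀ (mem_range.2 c) fun j _ => z j] at o
    exact ⟨c, o, z⟩
  · rw [sum_eq_zero fun j k => z j fun e => c (e ▸ mem_range.1 k)] at o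
    exact absurd o zero_ne_one

theorem ss_om (hϱ : Continuous ϱ) {y : M} (hy : 0 < ϱ y) (V0 : V j₀ y = 0) (δ α : ℝ) (g : Fld n M)
    (v : Fin n → M → ℝ) : SS δ α V g v K m y = Rv g v y := by
  have ev := continuousAt_const.eventually_lt hϱ.continuousAt hy
  have e1 : En g K m y = 0 := sum_eq_zero fun j _ => by
    by_cases c : j = j₀
    · have : K j =ᶠ[𝓝 y] fun _ => 1 := ev.mono fun z hz => c ▸ (om hj hK sK hz).2.1
      rw [fi, ip_congr this this, ip_const_left, zero_div]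
    · exact P210V.fi_zero ((om hj hK sK hy).2.2 j c)
  have e2 : ∑ j ∈ range m, V j y * K j y = 0 := sum_eq_zero fun j _ => by
    by_cases c : j = j₀
    · rw [c, V0, zero_mul]
    · rw [(om hj hK sK hy).2.2 j c, mul_zero]
  rw [SS, e1, e2]; ring

end

theorem sweep_of (hD : DRIFT) (hP : PSTEP) (hM : MIX) (hB : MIXB) (hA : ALG) (hO : ALGO)
    (h1 : SW1) (hI : INNER) (hU : OUTER) : SWEEP := by
  intro n hn A A1
  obtain ⟨C₁, hC₁, hD⟩ := hD
  obtain ⟨C₂, hC₂, hP⟩ := hP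
  have n1 : (1 : ℝ) ≤ n := by exact_mod_cast one_le_two.trans hn
  obtain ⟨c, c0, δ, δ0, a, k1, k2, k3, k4, k5, k6, k7, k8⟩ := consts (C := C₁) n1 A1
  have a0 : 0 < a := by linarith
  obtain ⟨θ, θ0, hθ⟩ : ∃ θ > (0 : ℝ), C₂ * θ ≤ a * δ / 100 :=
    ⟨a * δ / 100 / C₂, by positivity, le_of_eq (by field_simp)⟩
  refine ⟨δ, δ0, by linarith, δ / 2000, by positivity, θ, θ0, 4 / a + 4, by positivity,
    min (δ / 100) (1 / C₁), by positivity, ?_⟩
  intro X _ _ g₀ Λ U V p m j₀ ϱ B α hg₀ hV hp sp hE hϱ hj α0 hα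
  have α1 : α ≤ δ / 100 := hα.trans (min_le_left _ _)
  have α2 : C₁ * α ≤ 1 := by
    rw [mul_comm]; exact (le_div_iff₀ (by positivity)).1 (hα.trans (min_le_right _ _))
  obtain ⟨β₀, hβ⟩ := hP n X g₀ ϱ (a / 10) hn hg₀ hϱ (by positivity)
  obtain ⟨L₀, hL₀⟩ := (isCompact_range hV.sml.cont).bddAbove
  obtain ⟨χ, hχ, χ1, χz, χo⟩ := P210T.cutoff (ϱ := fun x => -ϱ x) (CD.neg hϱ)
    (show (-5 / 2 : ℝ) < -2 by norm_num)
  obtain ⟨B₁, hB₁⟩ := (isCompact_range (hg₀.cont_ip hχ.one hχ.one)).bddAbove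
  obtain ⟨s₀, s0, hs⟩ := mem_nhdsGT_iff_exists_Ioc_subset.1
    ((small (f := fun s => β₀ * (2 * s)) (b := α) (by fun_prop) (by simpa)).and
    ((small (f := fun s => 16 * s ^ 2 * L₀) (b := α ^ 2) (by fun_prop) (by simp; positivity)).and
    (small (f := fun s => 10000 * s * B) (b := δ * α) (by fun_prop) (by simp; positivity))))
  refine ⟨s₀, s0, fun s s0 s1 η η0 => ?_⟩
  obtain ⟨s1, s2, s3⟩ := hs ⟨s0, s1⟩
  have η8 : (0 : ℝ) < η / 8 := by positivity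
  obtain ⟨r₀, r0, r1, r2⟩ := small_ex
    ((small (f := fun r => r) (b := s / 16) (by fun_prop) (by positivity)).and
    (small (f := fun r => 4 * α * r * B / s) (b := η / 8) (by fun_prop) (by simpa using η0)))
  refine ⟨r₀, r0, r1, fun d d0 g v K h hg up hv hK sK => ?_⟩
  obtain ⟨e, e0, e1, e2⟩ := small_ex
    ((small (f := fun e => e) (b := α) (by fun_prop) α0).and
    (small (f := fun e => 4 * δ * e * B) (b := η / 8) (by fun_prop) (by simpa using η0)))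
  obtain ⟨η₁, p0, p1, p2, p3⟩ := small_ex
    ((small (f := fun e => e) (b := 1 / 10) (by fun_prop) (by norm_num)).and
    ((small (f := fun e => e * α * m / r₀) (b := η / 8) (by fun_prop) (by simpa using η0)).and
    (small (f := fun e => 20 * e ^ 2 * α ^ 2 / (δ * r₀)) (b := η / 8) (by fun_prop) (by simpa using η0))))
  obtain ⟨η₂, q0, q1, q2, q3, q4, q5⟩ := small_ex
    ((small (f := fun e => e) (b := s / 8) (by fun_prop) (by positivity)).and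
    ((small (f := fun e => 2 * m * α * e / s) (b := η / 8) (by fun_prop) (by simpa using η0)).and
    ((small (f := fun e => m * e) (b := η / 8) (by fun_prop) (by simpa using η0)).and
    ((small (f := fun e => C₁ * c * ((m * e) ^ 2 / α) * B₁) (b := η / 8) (by fun_prop) (by simpa using η0)).and
    (small (f := fun e => A * δ * ((m * e) ^ 2 / r₀)) (b := η / 8) (by fun_prop) (by simpa using η0))))))
  obtain ⟨d₂, d1, d2, d3⟩ := small_ex
    ((small (f := fun e => e) (b := d) (by fun_prop) d0).and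
    (small (f := fun e => 8 * m * e) (b := η₁ * √r₀) (by fun_prop) (by simp; positivity)))
  have pV : ∀ j x, p j x ≠ 0 → x ∈ U j ∧ V j x = 0 := fun j x k =>
    ⟨(sp j x k).1, (sp j x k).2.antisymm (hV.nn j x (sp j x k).1)⟩
  have oV : ∀ y, 0 < ϱ y → y ∈ U j₀ ∧ V j₀ y = 0 := fun y hy =>
    pV j₀ y (by rw [(om hj hp sp hy).2.1]; exact one_ne_zero)
  obtain ⟨h', ε, W, t, κ, vs, rfl, S⟩ := h1 n X g₀ ϱ Λ U V K m (C₂ * θ) a α s η₂ d₂ g v hg₀ hg up hv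
    hϱ hK fun j _ g' v' b1 b2 b3 => hβ _ ((le_div_iff₀ (by positivity)).2 s1) (by positivity) θ Λ U V
      j (K j) h (1 - a) s η₂ d₂ g' v' θ0 hV (hK.sm j) (hK.nn j) (sK j) (by
        by_cases k : j = j₀
        · exact Or.inr fun x hx => k ▸ ⟨(oV x hx).1, (oV x hx).2, (om hj hK sK hx).2.1⟩
        · exact Or.inl fun x hx c => (hj j k x c).not_gt hx)
      (by linarith) (by linarith) s0 q0 d1 b1 b2 b3
  obtain ⟨b, cb, bz, hb⟩ := hD n X g t m χ (1 - a) c α r₀ (one_le_two.trans hn) hg S.smt S.t0 hχ χ1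
    (by linarith) (by linarith) c0 k6 α0 α2 r0
  have hG := P210D.met_gs hg S.smt m
  have uG := P210S.up_trans up (up_gs g t m)
  obtain ⟨Y, hY⟩ : ∃ Y : X → ℝ, Y = fun y => 2 * δ * (∑ j ∈ range m, W j y * t j y ^ 2 + e) * s *
    rr r₀ t m y / (α * (s + rr r₀ t m y)) := ⟨_, rfl⟩
  have mb := fun x => hB n X (gs g t m) t W m r₀ s α δ e (C₂ * θ) (Λ x) x hG S.smt S.smW S.W0 r0 s0
    α0 δ0 e0 (by positivity) (hV.l0 x) (fun j k =>
      (P210S.ip_mono hg₀ hG uG _ x).trans ((S.pst j k).gW x)) Y hY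
  obtain ⟨K', hK', z', m'⟩ := mix' hM hG S.smt S.t0 hp
    (P210U.sm_loc fun x => ⟨Y, (mb x).1, EventuallyEq.rfl⟩) (fun x => (mb x).2.1 x) r0 d1
    (by linarith) d3
  have sK' : Sup U V K' (∑ j ∈ range m, |h' j|) := fun j x k => by
    obtain ⟨jm, k | k⟩ := z' j x k
    · have : x ∈ U j ∧ V j x ≤ h' j := by
        by_contra c
        exact ((S.pst j jm).out x c).not_gt k
      exact ⟨this.1, this.2.trans ((le_abs_self _).trans (single_le_sum (f := fun j => |h' j|)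
        (fun _ _ => abs_nonneg _) (mem_range.2 jm)))⟩
    · exact ⟨(pV j x k).1, (pV j x k).2.le.trans (sum_nonneg fun _ _ => abs_nonneg _)⟩
  have ou := fun x (hx : 0 < ϱ x) => hU n X g₀ ϱ Λ U V K m j₀ (C₂ * θ) a α s η₂ d₂ g h' ε W t κ vs r₀
    x S a0 k3 α0 s0 r0.le (om hj hK sK hx).1 (fun y hy =>
      ⟨(om hj hK sK hy).2.1, (oV y hy).2, (om hj hK sK hy).2.2⟩) _ _ _ _ _ rfl rfl rfl rfl rfl
  have rl : ∀ x, r₀ ≤ rr r₀ t m x := fun x =>
    le_add_of_nonneg_right (sum_nonneg fun _ _ => sq_nonneg _)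
  refine ⟨t, fun i y => vs m i y + b i y, K', _, S.smt, S.cc_vs.add cb, hK', sK', fun j k x =>
    ⟨S.t0 j x, fun c => ((S.pst j k).out x fun c' => c c'.1).trans d2⟩, fun x hx => ?_, fun x => ?_⟩
  · obtain ⟨-, o2, o3⟩ := ou x (by linarith)
    refine ⟨(o3 hx).1, fun i => ?_, by linarith [(o2 (by linarith)).2.2.2.1]⟩
    simp only [bz x (χz x (by linarith)).self_of_nhds, add_zero, (o3 hx).2]
  have rp := r0.trans_le (rl x)
  have T0 : 0 ≤ tt g t m x := sum_nonneg fun _ _ => hG.ip_nonneg _ x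
  have Λ0 := hV.l0 x
  have E0 : 0 ≤ En g₀ p m x := P210V.REn_nonneg hg₀ fun j => hp.nn j x
  have dr := hb (vs m) S.cc_vs x (δ / 100) α1 (by linarith)
  have G0 : 0 ≤ if aa g t m x ≤ 4 * α then χ x * c * aa g t m x ^ 2 / (4 * n * rr r₀ t m x)
      else 0 := by
    have := (χ1 x).1
    split_ifs
    exacts [by positivity, le_rfl]
  have Y0 : 0 ≤ ∑ j ∈ range m, yy (gs g t j) (t j) x ^ 2 := sum_nonneg fun _ _ => sq_nonneg _
  have c1 : ϱ x < 2 → ip (gs g t m) χ χ x = 0 := fun k => by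
    rw [ip_congr (χo x (by linarith)) (χo x (by linarith)), ip_const_left]
  obtain ⟨-, Yp, mL, mb⟩ := mb x
  by_cases hx : ϱ x ≤ 0
  · obtain ⟨i1, i2, i3, i4, i5, i6, P, D, i7, i8, i9, i10, i11, i12⟩ := hI n X g₀ ϱ Λ U V K m
      (C₂ * θ) a α s η₂ d₂ g h' ε W t κ vs δ r₀ x S a0 (by linarith) δ0 (by linarith) α0 s0
      (by positivity) r0.le Λ0 ((mul_le_mul_of_nonneg_left (hL₀ ⟨x, rfl⟩) (by positivity)).trans s2)
      hx _ _ _ _ _ _ rfl rfl rfl rfl rfl rfl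
    obtain ⟨z, hz⟩ : ∃ z, z = 2 * δ * (∑ j ∈ range m, W j x * t j x ^ 2 + e) * s /
      (α * (s + rr r₀ t m x)) := ⟨_, rfl⟩
    have Yz : Y x = z * rr r₀ t m x := by rw [hY, hz]; ring
    have Rz : rr r₀ t m x + Y x = rr r₀ t m x * (1 + z) := by rw [Yz]; ring
    have Rp : 0 < rr r₀ t m x + Y x := add_pos rp (Yp x)
    have b0 : 0 ≤ ∑ j ∈ range m, (W j x * t j x) ^ 2 := sum_nonneg fun _ _ => sq_nonneg _
    have vk : ∑ j ∈ range m, V j x * K' j x ≤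
        (1 + η₁) * ((∑ j ∈ range m, W j x * t j x ^ 2) / (rr r₀ t m x + Y x)) := by
      rw [sum_div, mul_sum]
      refine sum_le_sum fun j k => ?_
      have W0 := S.W0 j x
      by_cases k1 : K' j x = 0
      · rw [k1, mul_zero]; positivity
      by_cases k2 : p j x = 0
      · have k3 : x ∈ U j ∧ V j x ≤ h' j := by
          by_contra c
          exact ((z' j x k1).2.resolve_right fun c => c k2).not_ge
            ((S.pst j (mem_range.1 k)).out x c)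
        have k4 := (m' x).1 j (mem_range.1 k)
        rw [k2, mul_zero, add_zero] at k4
        refine (mul_le_mul ((S.pst j (mem_range.1 k)).new x k3.1 k3.2) k4 (hK'.nn j x) W0).trans_eq ?_
        ring
      · rw [(pV j x k2).2, zero_mul]; positivity
    have Tm : tt g t m x ≤ m := i1.trans (by
      simpa using sum_le_card_nsmul (range m) (fun j => 1 - uu (gs g t j) (t j) x ^ 2) 1
        fun j _ => sub_le_self _ (sq_nonneg _))
    have al := hA _ s α δ a (c / (4 * n)) (Λ x) _ B e η₁ r₀ m A _ _ _ _ _ P _ D _ z r0 (rl x) s0 α0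
      δ0 k1 (by linarith) k2 k3 k4 k5 Λ0 E0 (hE x) e0.le e1 p0.le p1 s3 T0 i1 Tm i2 i3
      (sum_nonneg fun j _ => mul_nonneg (S.W0 j x) (sq_nonneg _)) b0 i4 i5 i7 i8 i9 i10 G0
      (fun k => by rw [if_pos k, (χo x (by linarith)).self_of_nhds]; exact le_of_eq (by ring)) hz
    rw [c1 (by linarith), mul_zero, sub_zero] at dr
    have fin := in_alg (D₁ := α / s * ∑ j ∈ range m, (1 - uu (gs g t j) (t j) x ^ 2) +
      (2 - δ) * α * (∑ j ∈ range m, W j x * t j x ^ 2) / s - D - 2 * m * α * η₂ / s)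
      (S₀ := SS δ α V g (vs 0) K m x) (by linarith) dr i11 (m' x).2 mb
      (P210V.REn_anti uG hg₀ hG fun j => hp.nn j x)
      (div_nonneg (add_pos r0 (Yp x)).le Rp.le) vk i6 b0
      (sum_nonneg fun j _ => mul_nonneg (S.W0 j x) (hG.ip_nonneg _ x)) Y0 (hG.ip_nonneg _ x) α0 δ0 k1
      k3 k7 p0.le p1 hθ
    rw [Rz, Yz] at fin
    rw [SS, SS] at *
    unfold tt at *
    linarith
  push Not at hx
  rw [ss_om hj hK sK hϱ.cont hx (oV x hx).2, ss_om hj hK' sK' hϱ.cont hx (oV x hx).2]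
  have n1 : 0 ≤ (4 / a + 4) * s * Λ x := by positivity
  have n2 : 0 ≤ δ * s * En g₀ p m x ^ 2 := by positivity
  obtain ⟨o1, o2, -⟩ := ou x hx
  by_cases h3 : ϱ x < 3
  · obtain ⟨i1, i2, i3, i4, i5, i6⟩ := o1 hx h3
    have H0 : 0 ≤ ∑ j ∈ range m, Dv (gs g t m) (vs m) (nv (gs g t j) (t j)) x ^ 2 :=
      sum_nonneg fun _ _ => sq_nonneg _
    have al := hO _ s α δ a _ A _ _ _ _ _ _ rp s0 α0 δ0 k1 (by linarith) k2 k3 (by positivity) k8 T0
      i1 i2 i3 mL H0 i5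
    have fin := out_alg i6 dr i4 G0 H0 Y0 δ0 k1 k3
    have : C₁ * c * (aa g t m x ^ 2 / α) * ip (gs g t m) χ χ x ≤ η / 8 := by
      by_cases k : ϱ x < 2
      · rw [c1 k, mul_zero]; exact η8.le
      · obtain ⟨j1, j2, -⟩ := o2 (not_lt.1 k)
        have := hG.ip_nonneg χ x
        have := (P210S.ip_mono hg₀ hG uG χ x).trans (hB₁ ⟨x, rfl⟩)
        refine le_trans ?_ q4
        gcongr
    linarith
  · obtain ⟨-, -, j3, j4, j5⟩ := o2 (by linarith)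
    have e : Rv (gs g t m) (fun i y => vs m i y + b i y) x = Rv (gs g t m) (vs m) x :=
      P210U.Rv_of_ev EventuallyEq.rfl fun i => (χz x (by linarith)).mono fun y hy => by
        simp only [bz y hy i, add_zero]
    have : A * δ * (tt g t m x ^ 2 / rr r₀ t m x) ≤ η / 8 := by
      refine le_trans ?_ q5
      gcongr
      exact rl x
    rw [e, if_neg (by linarith)]
    linarith

end Vale.Agent.P210R
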